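import Vale.Agent.P286EV.Kit

/-!
# The determinant of the universal lattice for `SO_3`
-/

set_option linter.all false

namespace Vale.Agent.P286EV

open Matrix Vale.Agent.P286 Vale.Agent.P286E Vale.Agent.P286EN Vale.Agent.P286EB
open Vale.Agent.P286ER4 (h3 h3_tr)

noncomputable section

attribute [-instance] HahnSeries.powerSeriesAlgebra

variable {A : Type} [CommRing A] {N : ℕ} [Algebra ℂ A] {E : Ell}

theorem comm_rho {X Y : Matrix (Fin N) (Fin N) A} (h : X * Y = Y * X) :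
    cm Y * rho X = rho X * cm Y := rho_inter h.symm

theorem vol_mp (e : Rt E) {X : Matrix (Fin 3) (Fin 3) A} {ξ : Fin 3 → A} (hX : Xᵀ = X)
    (hp : MPt E X (y3 ξ)) (h : ∀ W, Col (U E X (y3 ξ)) W → InJ e W.det) :
    ∃ x, Vv e x (X - ea e A • 1) ξ := by
  obtain ⟨p, hd⟩ := det_rho e X (h _ (col_lat_left _ _)).2
  obtain ⟨Z, rfl⟩ : ∃ Z, X = Z + ea e A • 1 := ⟨X - ea e A • 1, (sub_add_cancel _ _).symm⟩
  have hρ := rho_sq (ea e A) (Z + ea e A • 1)
  have hρ' := (rho_mul_rho (Z + ea e A • 1)).symm.trans hρ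
  have hZY : Z * y3 ξ = y3 ξ * Z := by
    have h1 := hp.comm
    rwa [add_mul, mul_add, smul_mul_assoc, mul_smul_comm, one_mul, mul_one, add_left_inj] at h1
  rw [add_sub_cancel_right] at hρ hρ' ⊢
  have hs := sr_sq (ea e A)
  have hi := sr_sI (ea e A)
  -- the characteristic polynomial
  have e1 := congrArg det hρ
  rw [det_mul, det_char, hd, cm_adj, cm_trace, cm_trace, cm_det] at e1
  obtain ⟨a1, a2⟩ := quad1 (a := 2 * (p - ea e A) - trace Z) (e := ea e A)
    (b := trace Z.adjugate - (p - ea e A) ^ 2) (c := -Z.det) (by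
      simp only [map_sub, map_mul, map_pow, map_neg, map_ofNat]
      linear_combination -e1 + (xs A - HahnSeries.C p) ^ 2 * hs)
  rw [sub_eq_zero] at a1 a2
  -- the mixed determinants
  have hM : ∀ k l, InJ e (((rho (Z + ea e A • 1)).adjugate * sig E (Z + ea e A • 1) (y3 ξ) :
      Matrix (Fin 3) (Fin 3) (Ls A)) k l) := by
    intro k l
    have h1 := h ((rho (Z + ea e A • 1)).updateCol k fun i => sig E (Z + ea e A • 1) (y3 ξ) i l)
      fun j => by
        by_cases hj : j = k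
        · simp only [hj, updateCol_self]
          exact col_lat_right _ _ l
        · simp only [updateCol_ne hj]
          exact col_lat_left _ _ j
    rwa [← cramer_apply, cramer_eq_adjugate_mulVec] at h1
  have e2 := m1 hρ (sig_rho (E := E) _ (y3 ξ)) (comm_rho hp.comm)
  rw [hd] at e2
  have hx := ent_xX (Z + ea e A • 1)
  have hτ : xs A - HahnSeries.C p ∈ Px A := (Px A).sub_mem xs_mem_Px (C_mem_Px _)
  have ht : xs A - HahnSeries.C (ea e A) ∈ Px A := (Px A).sub_mem xs_mem_Px (C_mem_Px _)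
  obtain ⟨P1, Q1, hP1, hQ1, f1⟩ := ent_split (E := E) (W := sr (ea e A) •
    ((rho (Z + ea e A • 1)).adjugate * sig E (Z + ea e A • 1) (y3 ξ))) fun k l => (hM k l).1
  obtain ⟨P2, Q2, hP2, hQ2, f2⟩ := ent_split (E := E) (W := (ys E A * sI (ea e A)) •
    ((rho (Z + ea e A • 1)).adjugate * sig E (Z + ea e A • 1) (y3 ξ))) fun k l => (hM k l).2
  rw [← hρ'] at e2
  have g1 := (yfree (E := E) (hP1.mul hx) (hQ1.mul hx)
    ((ent_cm (y3 ξ)).smul ((Px A).mul_mem ht hτ)) (ent_one.smul ((Px A).mul_mem ht hτ)) (by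
      rw [← smul_mul_assoc, ← add_mul, ← f1, smul_mul_assoc, e2, ← hs]
      module)).2
  have g2 := (yfree (E := E) (hP2.mul hx) (hQ2.mul hx)
    (ent_one.smul ((Px A).mul_mem (ys_sq_mem E) hτ)) ((ent_cm (y3 ξ)).smul hτ) (by
      rw [← smul_mul_assoc, ← add_mul, ← f2, smul_mul_assoc, e2, smul_smul,
        show ys E A * sI (ea e A) * (sr (ea e A) * (xs A - HahnSeries.C p)) =
          ys E A * (xs A - HahnSeries.C p) by
          linear_combination ys E A * (xs A - HahnSeries.C p) * hi]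
      module)).2
  have k1 : Z * Z - (p - ea e A) • Z = 0 :=
    kill (X := Z + ea e A • 1) (hQ1.sub ((ent_one.smul hτ).add (ent_cm Z))) (by
      rw [sub_mul, g1, hρ', cm_sub, cm_mul, cm_smul, map_sub]
      simp only [mul_sub, add_mul, smul_mul_assoc, mul_smul_comm, one_mul, mul_one]
      module)
  have k2 : y3 ξ * Z - (p - ea e A) • y3 ξ = 0 :=
    kill (X := Z + ea e A • 1) (hQ2.sub (ent_cm (y3 ξ))) (by
      rw [sub_mul, g2, hρ', cm_sub, cm_mul, cm_smul, map_sub]
      simp only [mul_sub, mul_smul_comm, mul_one]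
      module)
  rw [sub_eq_zero] at k1 k2
  refine ⟨p, ?_, k1, a1.symm, ?_, hZY.trans k2, ?_⟩
  · rwa [transpose_add, transpose_smul, transpose_one, add_left_inj] at hX
  · rw [adj_ch, k1, ← a1, a2]
    module
  · have h1 := cube (rt_ea e) k1
    rw [algebraMap_smul, algebraMap_smul, ← hp.eqn, add_sub_cancel] at h1
    exact h1

theorem vol_mpr (e : Rt E) {X : Matrix (Fin 3) (Fin 3) A} {ξ : Fin 3 → A} (hp : X * y3 ξ = y3 ξ * X)
    {p : A} (h : Vv e p (X - ea e A • 1) ξ) {P Q : Matrix (Fin 3) (Fin 3) (Ls A)}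
    (hP : Ent (Rg E A) P) (hQ : Ent (Rg E A) Q) : InJ e (rho X * P + sig E X (y3 ξ) * Q).det := by
  have hρ := rho_sq (ea e A) X
  generalize X - ea e A • 1 = Z at h hρ
  have hs := sr_sq (ea e A)
  have hi := sr_sI (ea e A)
  have hZ : cm Z * cm Z = (HahnSeries.C (p - ea e A) : Ls A) • cm Z := by
    rw [← cm_mul, h.sq, cm_smul]
  have hZY : cm Z * cm (y3 ξ) = (HahnSeries.C (p - ea e A) : Ls A) • cm (y3 ξ) := by
    rw [← cm_mul, h.zy, cm_smul]
  have hYZ : cm (y3 ξ) * cm Z = (HahnSeries.C (p - ea e A) : Ls A) • cm (y3 ξ) := by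
    have h1 := congrArg transpose h.zy
    rw [transpose_mul, transpose_smul, h.sym, y3_eq, h3_tr, neg_mul, smul_neg, neg_inj,
      ← y3_eq] at h1
    rw [← cm_mul, h1, cm_smul]
  have hYY : cm (y3 ξ) * cm (y3 ξ) = (HahnSeries.C (gv e p) : Ls A) • cm Z := by
    rw [← cm_mul, h.yy, cm_smul]
  have hτ : xs A - HahnSeries.C (ea e A) = (xs A - HahnSeries.C p) + HahnSeries.C (p - ea e A) := by
    rw [map_sub, sub_add_sub_cancel]
  have e1 := congrArg det hρ
  rw [det_mul, det_vv hZ (by rw [cm_trace, h.tr, map_mul, map_ofNat])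
    (by rw [cm_adj, h.adj, cm_sub, cm_smul, cm_smul, cm_one, map_pow]), map_sub,
    sub_sub_sub_cancel_right] at e1
  obtain ⟨o1, c1⟩ := lead_det X
  have o2 : Ord (-2) (xs A - HahnSeries.C p) := ord_xs.sub ((Ord.C p).mono (by norm_num))
  have c2 := coeff_mul_lead (ord_sr (ea e A)) o2
  rw [sr_coeff, HahnSeries.coeff_sub, xs_coeff, Ord.C p (-2) (by norm_num), sub_zero, mul_one] at c2
  have hd : (rho X).det = sr (ea e A) * (xs A - HahnSeries.C p) :=
    sub_eq_zero.1 (eq_zero_of_mul_lead (o1.add ((ord_sr (ea e A)).mul' o2)) (by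
      rw [HahnSeries.coeff_add, c1, show (-3 : ℤ) = -1 + -2 from rfl, c2, one_add_one_eq_two]
      exact unit_two)
      (by linear_combination e1 - (xs A - HahnSeries.C p) ^ 2 * hs))
  have hn : ξ ⬝ᵥ ξ = (p - ea e A) * gv e p := by
    have h1 := congrArg trace h.yy
    rw [y3_eq, h3_trsq i_sq, trace_smul, h.tr, smul_eq_mul] at h1
    exact unit_two.mul_left_cancel (by linear_combination h1)
  have hg : (HahnSeries.C (gv e p) : Ls A) = HahnSeries.C p ^ 2 +
      HahnSeries.C (ea e A) * HahnSeries.C p + (HahnSeries.C (ea e A) ^ 2 + cc A E.a) := by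
    simp only [gv, cc, map_add, map_mul, map_pow]
  obtain ⟨q, hq0⟩ : ∃ q, q = xs A ^ 2 + xs A * HahnSeries.C p + HahnSeries.C p ^ 2 + cc A E.a :=
    ⟨_, rfl⟩
  have hq : ys E A * ys E A - (HahnSeries.C ∘ ξ) ⬝ᵥ (HahnSeries.C ∘ ξ) =
      (xs A - HahnSeries.C p) * q := by
    rw [C_dot, hn, map_mul, map_sub, hg, ys_fac e, gx, hq0]
    ring
  have hB := h3_adjy ci_sq (HahnSeries.C ∘ ξ) (ys E A)
  have hD := h3_dety ci_sq (HahnSeries.C ∘ ξ) (ys E A)
  rw [← cm_h3, ← y3_eq] at hB hD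
  have t1 := s1 hρ (sig_rho (E := E) X (y3 ξ)) (comm_rho hp) hs hτ hd (unit_rho X) hZ hYZ (y := ys E A)
  have t2 := s2 hρ (sig_rho (E := E) X (y3 ξ)) (comm_rho hp) hB hτ hd (unit_rho X) hZ hZY hYY hq
  have t3 := s3 (sig_rho (E := E) X (y3 ξ)) hD hd (unit_rho X) hq
  have hy := ys_sI (A := A) e
  have mx := Px_le_Rg E (xs_mem_Px (A := A))
  have mC : ∀ c : A, (HahnSeries.C c : Ls A) ∈ Rg E A := fun c => Px_le_Rg E (C_mem_Px c)
  have my := ys_mem_Rg E (A := A)
  have mg := Px_le_Rg E (gx_mem (A := A) e)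
  have mτ := (Rg E A).sub_mem mx (mC p)
  have mt := (Rg E A).sub_mem mx (mC (ea e A))
  have mq : q ∈ Rg E A := hq0 ▸ (Rg E A).add_mem ((Rg E A).add_mem ((Rg E A).add_mem
    ((Rg E A).pow_mem mx 2) ((Rg E A).mul_mem mx (mC p))) ((Rg E A).pow_mem (mC p) 2)) (mC _)
  have mZ : Ent (Rg E A) (cm Z) := (ent_cm Z).mono (Px_le_Rg E)
  have mY : Ent (Rg E A) (cm (y3 ξ)) := (ent_cm _).mono (Px_le_Rg E)
  have key : ∀ c : Ls A, c * (rho X).det ∈ Rg E A →
      Ent (Rg E A) (c • ((rho X).adjugate * sig E X (y3 ξ))) →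
      Ent (Rg E A) (c • ((sig E X (y3 ξ)).adjugate * rho X)) →
      c * (sig E X (y3 ξ)).det ∈ Rg E A → E.Reg (c * (rho X * P + sig E X (y3 ξ) * Q).det) := by
    intro c h0 h1 h2 h3
    rw [det_lat]
    exact (Rg E A).add_mem ((Rg E A).add_mem ((Rg E A).add_mem ((Rg E A).mul_mem h0 (ent_det hP))
      (ent_trace (((ent_adj hP).mul h1).mul hQ))) (ent_trace (((ent_adj hQ).mul h2).mul hP)))
      ((Rg E A).mul_mem h3 (ent_det hQ))
  have hc : ys E A * sI (ea e A) = ys E A * (sI (ea e A) * sI (ea e A)) * sr (ea e A) := by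
    linear_combination -(ys E A * sI (ea e A)) * hi
  have h1 : (xs A - HahnSeries.C (ea e A)) * (sI (ea e A) * sI (ea e A)) = 1 := by
    linear_combination (sr (ea e A) * sI (ea e A) + 1) * hi - sI (ea e A) * sI (ea e A) * hs
  refine ⟨key _ ?_ ?_ ?_ ?_, key _ ?_ ?_ ?_ ?_⟩
  · rw [hd, ← mul_assoc, hs]
    exact (Rg E A).mul_mem mt mτ
  · rw [t1]
    exact (((ent_one.smul mτ).add mZ).smul my).add (mY.smul mt)
  · rw [t2]
    exact ((((ent_one.smul mt).sub mZ).smul mq).sub (mY.smul my)).add (mZ.smul (mC _))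
  · rw [t3]
    exact (Rg E A).mul_mem my mq
  · rw [hd, show ys E A * sI (ea e A) * (sr (ea e A) * (xs A - HahnSeries.C p)) =
      ys E A * (xs A - HahnSeries.C p) by linear_combination ys E A * (xs A - HahnSeries.C p) * hi]
    exact (Rg E A).mul_mem my mτ
  · rw [hc, mul_smul, t1, smul_add, smul_smul, smul_smul, mul_right_comm, hy, mul_assoc,
      mul_comm (sI (ea e A) * sI (ea e A)), h1, mul_one]
    exact (((ent_one.smul mτ).add mZ).smul mg).add (mY.smul my)
  · have h2 : (ys E A * (sI (ea e A) * sI (ea e A))) • (q • ((xs A - HahnSeries.C (ea e A)) • 1 -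
        cm Z) - ys E A • cm (y3 ξ) + (HahnSeries.C (gv e p) : Ls A) • cm Z) =
        (ys E A * q) • 1 - gx e A • cm (y3 ξ) -
          (ys E A * (xs A + HahnSeries.C (ea e A) + HahnSeries.C p)) • cm Z := by
      rw [hg]
      match_scalars
      · linear_combination ys E A * q * h1
      · rw [hq0]
        linear_combination -(ys E A * (xs A + HahnSeries.C (ea e A) + HahnSeries.C p)) * h1
      · linear_combination -hy
    rw [hc, mul_smul, t2, h2]
    exact ((ent_one.smul ((Rg E A).mul_mem my mq)).sub (mY.smul mg)).sub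
      (mZ.smul ((Rg E A).mul_mem my ((Rg E A).add_mem ((Rg E A).add_mem mx (mC _)) (mC _))))
  · rw [hc, mul_assoc, t3, ← mul_assoc, mul_right_comm (ys E A), hy]
    exact (Rg E A).mul_mem mg mq

/-- **The determinant of `U(X, Y)` for `SO_3`.** -/
theorem vol : VOL := by
  intro E e A _ _ X ξ hX hp
  refine ⟨fun h => vol_mp e hX hp fun W hW => ?_, ?_⟩
  · rw [← det_transpose]
    exact h (fun j i => W i j) hW
  · rintro ⟨p, h⟩ m hm
    choose u v hu hv e1 using hm
    have e2 : (of m)ᵀ = rho X * (of u)ᵀ + sig E X (y3 ξ) * (of v)ᵀ :=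
      Matrix.ext fun i j => congrFun (e1 j) i
    rw [← det_transpose, e2]
    exact vol_mpr e hp.comm h (fun i j => Px_le_Rg E (hu j i)) fun i j => Px_le_Rg E (hv j i)

end

end Vale.Agent.P286EV
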