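import Vale.Agent.P286ER4.Gen

/-!
# Identities for matrices of size three
-/

set_option linter.all false

namespace Vale.Agent.P286EV

open Matrix Vale.Agent.P286ER4

variable {K : Type} [CommRing K]

theorem det_add3 (P Q : Matrix (Fin 3) (Fin 3) K) : (P + Q).det =
    P.det + trace (P.adjugate * Q) + trace (Q.adjugate * P) + Q.det := by
  simp only [det_fin_three, trace_fin_three, Matrix.mul_apply, Fin.sum_univ_three, Matrix.add_apply]
  simp [adjugate_fin_three]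
  ring

theorem det_char (t : K) (Z : Matrix (Fin 3) (Fin 3) K) : (t • (1 : Matrix (Fin 3) (Fin 3) K) - Z).det =
    t ^ 3 - trace Z * t ^ 2 + trace Z.adjugate * t - Z.det := by
  simp [det_fin_three, adjugate_fin_three, trace_fin_three]
  ring

theorem adj_ch (Z : Matrix (Fin 3) (Fin 3) K) :
    Z.adjugate = Z * Z - trace Z • Z + trace Z.adjugate • 1 := by
  ext a b
  fin_cases a <;> fin_cases b <;>
    simp [adjugate_fin_three, trace_fin_three, Matrix.mul_apply, Fin.sum_univ_three] <;> ring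

theorem h3_adjy {i : K} (hi : i * i = -1) (ξ : Fin 3 → K) (y : K) :
    (y • (1 : Matrix (Fin 3) (Fin 3) K) + h3 i ξ).adjugate =
      (y * y - ξ ⬝ᵥ ξ) • 1 - y • h3 i ξ + h3 i ξ * h3 i ξ := by
  ext a b
  fin_cases a <;> fin_cases b <;>
    simp [h3, adjugate_fin_three, Matrix.mul_apply, Fin.sum_univ_three, dotProduct] <;> grind

theorem h3_dety {i : K} (hi : i * i = -1) (ξ : Fin 3 → K) (y : K) :
    (y • (1 : Matrix (Fin 3) (Fin 3) K) + h3 i ξ).det = y * (y * y - ξ ⬝ᵥ ξ) := by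
  simp [h3, det_fin_three, Fin.sum_univ_three, dotProduct]
  grind

theorem h3_trsq {i : K} (hi : i * i = -1) (ξ : Fin 3 → K) :
    trace (h3 i ξ * h3 i ξ) = 2 * (ξ ⬝ᵥ ξ) := by
  simp [h3, trace_fin_three, dotProduct, Fin.sum_univ_three]
  grind

section
variable {ρ σ Z Y : Matrix (Fin 3) (Fin 3) K} {s y t τ l gp q n : K}

theorem m1 (hρ : ρ * ρ = t • 1 - Z) (hσ : σ * ρ = y • 1 + Y) (hc : Y * ρ = ρ * Y) :
    ρ.adjugate * σ * (t • 1 - Z) = ρ.det • (y • 1 + Y) := by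
  have h : (y • 1 + Y) * ρ = ρ * (y • 1 + Y) := by
    rw [add_mul, mul_add, hc, smul_mul_assoc, mul_smul_comm, one_mul, mul_one]
  rw [← hρ, Matrix.mul_assoc, ← Matrix.mul_assoc σ, hσ, h, ← Matrix.mul_assoc, adjugate_mul,
    smul_mul_assoc, one_mul]

theorem m2 (hρ : ρ * ρ = t • 1 - Z) (hσ : σ * ρ = y • 1 + Y) (hc : Y * ρ = ρ * Y)
    (hB : (y • 1 + Y).adjugate = (y * y - n) • 1 - y • Y + Y * Y) :
    ρ.det • (σ.adjugate * ρ) = (t • 1 - Z) * ((y * y - n) • 1 - y • Y + Y * Y) := by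
  have h : ((y * y - n) • 1 - y • Y + Y * Y) * ρ = ρ * ((y * y - n) • 1 - y • Y + Y * Y) := by
    rw [add_mul, mul_add, sub_mul, mul_sub, Matrix.mul_assoc, smul_mul_assoc, smul_mul_assoc, hc,
      ← Matrix.mul_assoc, hc, mul_smul_comm, mul_smul_comm, one_mul, mul_one, Matrix.mul_assoc]
  rw [← hρ, Matrix.mul_assoc, ← h, ← hB, ← hσ, adjugate_mul_distrib, ← Matrix.mul_assoc,
    ← Matrix.mul_assoc, mul_adjugate, smul_mul_assoc, smul_mul_assoc, one_mul]

theorem s1 (hρ : ρ * ρ = t • 1 - Z) (hσ : σ * ρ = y • 1 + Y) (hc : Y * ρ = ρ * Y)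
    (hs : s * s = t) (hτ : t = τ + l) (hd : ρ.det = s * τ) (hu : IsUnit ρ.det)
    (hZ : Z * Z = l • Z) (hY : Y * Z = l • Y) :
    s • (ρ.adjugate * σ) = y • (τ • 1 + Z) + t • Y := by
  have h := congrArg (· * (τ • 1 + Z)) (m1 hρ hσ hc)
  have h1 : (t • 1 - Z) * (τ • 1 + Z) = (t * τ) • (1 : Matrix (Fin 3) (Fin 3) K) := by
    simp only [mul_add, sub_mul, smul_mul_assoc, mul_smul_comm, one_mul, mul_one, hZ, hτ]
    module
  have h2 : (y • 1 + Y) * (τ • 1 + Z) = y • (τ • 1 + Z) + t • Y := by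
    simp only [mul_add, add_mul, smul_mul_assoc, mul_smul_comm, one_mul, mul_one, hY, hτ]
    module
  beta_reduce at h
  rw [Matrix.mul_assoc, h1, smul_mul_assoc, h2, mul_smul_comm, mul_one] at h
  refine hu.smul_left_cancel.1 ?_
  rw [← h, smul_smul, hd, ← hs, mul_right_comm]

theorem s2 (hρ : ρ * ρ = t • 1 - Z) (hσ : σ * ρ = y • 1 + Y) (hc : Y * ρ = ρ * Y)
    (hB : (y • 1 + Y).adjugate = (y * y - n) • 1 - y • Y + Y * Y)
    (hτ : t = τ + l) (hd : ρ.det = s * τ) (hu : IsUnit ρ.det)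
    (hZ : Z * Z = l • Z) (hY : Z * Y = l • Y) (hYY : Y * Y = gp • Z) (hq : y * y - n = τ * q) :
    s • (σ.adjugate * ρ) = q • (t • 1 - Z) - y • Y + gp • Z := by
  have h := m2 hρ hσ hc hB
  rw [hd] at hu h
  refine (isUnit_of_mul_isUnit_right hu).smul_left_cancel.1 ?_
  rw [smul_smul, mul_comm τ, h, hq, hYY]
  simp only [mul_add, mul_sub, sub_mul, smul_mul_assoc, mul_smul_comm, one_mul, mul_one, hZ, hY, hτ]
  module

theorem s3 (hσ : σ * ρ = y • 1 + Y) (hB : (y • 1 + Y).det = y * (y * y - n))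
    (hd : ρ.det = s * τ) (hu : IsUnit ρ.det) (hq : y * y - n = τ * q) : s * σ.det = y * q := by
  have h := congrArg det hσ
  rw [det_mul, hB, hq, hd] at h
  rw [hd] at hu
  exact (isUnit_of_mul_isUnit_right hu).mul_left_cancel (by linear_combination h)

theorem det_lat (c : K) (ρ σ P Q : Matrix (Fin 3) (Fin 3) K) : c * (ρ * P + σ * Q).det =
    c * ρ.det * P.det + trace (P.adjugate * (c • (ρ.adjugate * σ)) * Q) +
      trace (Q.adjugate * (c • (σ.adjugate * ρ)) * P) + c * σ.det * Q.det := by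
  rw [det_add3, det_mul, det_mul, adjugate_mul_distrib, adjugate_mul_distrib]
  simp only [mul_smul_comm, smul_mul_assoc, trace_smul, Matrix.mul_assoc, smul_eq_mul]
  ring

theorem det_zero (hZ : Z * Z = l • Z) (ha : Z.adjugate = l ^ 2 • 1 - l • Z) : Z.det = 0 := by
  have h := mul_adjugate Z
  rw [ha, mul_sub, mul_smul_comm, mul_smul_comm, hZ, mul_one, smul_smul, ← pow_two, sub_self] at h
  have h1 := congrFun (congrFun h 0) 0
  simpa using h1.symm

theorem det_vv (hZ : Z * Z = l • Z) (ht : trace Z = 2 * l) (ha : Z.adjugate = l ^ 2 • 1 - l • Z)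
    (t : K) : (t • 1 - Z).det = t * (t - l) ^ 2 := by
  rw [det_char, det_zero hZ ha, ha, trace_sub, trace_smul, trace_smul, ht, trace_one]
  simp only [smul_eq_mul, Fintype.card_fin, Nat.cast_ofNat]
  ring

theorem cube {e a b : K} (he : e ^ 3 + a * e + b = 0) (hZ : Z * Z = l • Z) :
    (Z + e • 1) ^ 3 + a • (Z + e • 1) + b • 1 =
      ((e + l) ^ 2 + e * (e + l) + (e ^ 2 + a)) • Z := by
  have hb : b = -(e ^ 3 + a * e) := by linear_combination he
  rw [hb, pow_three (Z + e • 1)]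
  simp only [mul_add, add_mul, smul_mul_assoc, mul_smul_comm, one_mul, mul_one, hZ]
  module

end

end Vale.Agent.P286EV
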