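import Vale.Agent.P286EB.IF
import Vale.Agent.P286EN.Adj
import Vale.Agent.P286EV.Alg

/-!
# The determinant of `ρ`
-/

set_option linter.all false

namespace Vale.Agent.P286EV

open Matrix Vale.Agent.P286 Vale.Agent.P286E Vale.Agent.P286EN Vale.Agent.P286EB
open Vale.Agent.P286ER4 (h3 h3_tr)

noncomputable section

attribute [-instance] HahnSeries.powerSeriesAlgebra

variable {A : Type} [CommRing A] {N : ℕ}

theorem ent_det {R : Subring (Ls A)} {W : Matrix (Fin N) (Fin N) (Ls A)} (h : Ent R W) :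
    W.det ∈ R := by
  obtain ⟨b, rfl⟩ : ∃ b : Matrix (Fin N) (Fin N) R, b.map R.subtype = W :=
    ⟨of fun i j => ⟨W i j, h i j⟩, rfl⟩
  rw [← RingHom.mapMatrix_apply, ← RingHom.map_det]
  exact (b.det).2

theorem ent_adj {R : Subring (Ls A)} {W : Matrix (Fin N) (Fin N) (Ls A)} (h : Ent R W) :
    Ent R W.adjugate := by
  obtain ⟨b, rfl⟩ : ∃ b : Matrix (Fin N) (Fin N) R, b.map R.subtype = W :=
    ⟨of fun i j => ⟨W i j, h i j⟩, rfl⟩
  rw [← RingHom.mapMatrix_apply, ← RingHom.map_adjugate]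
  exact fun i j => (b.adjugate i j).2

theorem ent_trace {R : Subring (Ls A)} {W : Matrix (Fin N) (Fin N) (Ls A)} (h : Ent R W) :
    trace W ∈ R := R.sum_mem (t := Finset.univ) (f := fun i => W i i) fun i _ => h i i

theorem cm_det (X : Matrix (Fin N) (Fin N) A) : (cm X).det = HahnSeries.C X.det :=
  (RingHom.map_det (HahnSeries.C : A →+* Ls A) X).symm

theorem cm_adj (X : Matrix (Fin N) (Fin N) A) : (cm X).adjugate = cm X.adjugate :=
  (RingHom.map_adjugate (HahnSeries.C : A →+* Ls A) X).symm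

theorem cm_trace (X : Matrix (Fin N) (Fin N) A) : trace (cm X) = HahnSeries.C (trace X) :=
  (map_sum (HahnSeries.C : A →+* Ls A) (fun i => X i i) Finset.univ).symm

theorem cm_h3 (i : A) (ξ : Fin 3 → A) :
    cm (h3 i ξ) = h3 (HahnSeries.C i : Ls A) (HahnSeries.C ∘ ξ) := by
  refine Matrix.ext fun a b => ?_
  rw [cm_apply]
  fin_cases a <;> fin_cases b <;> simp [h3, -HahnSeries.C_apply]

theorem C_dot (ξ : Fin 3 → A) :
    ((HahnSeries.C ∘ ξ : Fin 3 → Ls A) ⬝ᵥ (HahnSeries.C ∘ ξ)) = HahnSeries.C (ξ ⬝ᵥ ξ) :=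
  (RingHom.map_dotProduct (HahnSeries.C : A →+* Ls A) ξ ξ).symm

theorem quad1 {a b c e : A} (h : HahnSeries.C a * (xs A - HahnSeries.C e) ^ 2 +
    HahnSeries.C b * (xs A - HahnSeries.C e) + HahnSeries.C c = 0) : a = 0 ∧ b = 0 := by
  have h1 := quad_eq_zero (N := 1) (P := a • 1) (Q := (b - (a + a) * e) • 1)
    (R := (c - b * e + a * e ^ 2) • 1) (by
      rw [cm_smul, cm_smul, cm_smul, cm_one, smul_smul, smul_smul, smul_smul, ← add_smul,
        ← add_smul]
      refine (congrArg (fun w : Ls A => w • (1 : Matrix (Fin 1) (Fin 1) (Ls A)))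
        (a₂ := 0) ?_).trans (zero_smul (Ls A) _)
      simp only [map_sub, map_add, map_mul, map_pow]
      linear_combination h)
  have h2 : a = 0 := by simpa using congrFun (congrFun h1.1 0) 0
  have h3 : b - (a + a) * e = 0 := by simpa using congrFun (congrFun h1.2.1 0) 0
  exact ⟨h2, by rw [h2] at h3; linear_combination h3⟩

variable [Algebra ℂ A] {E : Ell}

theorem sr_sq (c : A) : sr c * sr c = xs A - HahnSeries.C c := by
  have h := congrFun (congrFun (rho_mul_rho (N := 1) (of fun _ _ => c)) 0) 0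
  rw [Matrix.mul_apply, Fin.sum_univ_one, Matrix.sub_apply, Matrix.smul_apply, one_apply_eq,
    smul_eq_mul, mul_one] at h
  exact h

theorem sr_sI (c : A) : sr c * sI c = 1 := by
  have h := congrFun (congrFun (rho_mul_rhoI (N := 1) (of fun _ _ => c)) 0) 0
  rw [Matrix.mul_apply, Fin.sum_univ_one, one_apply_eq] at h
  exact h

theorem ord_sr (c : A) : Ord (-1) (sr c) := (lead_rho (N := 1) _).1 0 0

theorem sr_coeff (c : A) : (sr c).coeff (-1) = 1 := (lead_rho (N := 1) _).2 0 0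

theorem ord_sI (c : A) : Ord 1 (sI c) := (lead_rhoI (N := 1) _).1 0 0

theorem sI_coeff (c : A) : (sI c).coeff 1 = 1 := (lead_rhoI (N := 1) _).2 0 0

theorem y3_eq (ξ : Fin 3 → A) : y3 ξ = h3 (algebraMap ℂ A Complex.I) ξ := by
  have : ∑ i, ξ i • (SO3.β i : Matrix (Fin 3) (Fin 3) ℂ).map (algebraMap ℂ A) =
      h3 (algebraMap ℂ A Complex.I) ξ := by
    refine Matrix.ext fun a b => ?_
    rw [Fin.sum_univ_three]
    simp only [Matrix.add_apply, Matrix.smul_apply, smul_eq_mul]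
    fin_cases a <;> fin_cases b <;> simp [SO3, h3, mul_comm]
  exact this

theorem i_sq : algebraMap ℂ A Complex.I * algebraMap ℂ A Complex.I = -1 := by
  rw [← map_mul, Complex.I_mul_I, map_neg, map_one]

theorem ci_sq : (HahnSeries.C (algebraMap ℂ A Complex.I) : Ls A) *
    HahnSeries.C (algebraMap ℂ A Complex.I) = -1 := by
  rw [← map_mul, i_sq, map_neg, map_one]

theorem rt_ea (e : Rt E) : ea e A ^ 3 + algebraMap ℂ A E.a * ea e A + algebraMap ℂ A E.b = 0 := by
  have h := congrArg (algebraMap ℂ A) e.rt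
  rwa [map_add, map_add, map_pow, map_mul, map_zero] at h

/-- The function `g(x)`. -/
def gx (e : Rt E) (A : Type) [CommRing A] [Algebra ℂ A] : Ls A :=
  xs A ^ 2 + HahnSeries.C (ea e A) * xs A + (HahnSeries.C (ea e A) ^ 2 + cc A E.a)

theorem gx_mem (e : Rt E) : gx e A ∈ Px A :=
  (Px A).add_mem ((Px A).add_mem ((Px A).pow_mem xs_mem_Px 2) ((Px A).mul_mem (C_mem_Px _)
    xs_mem_Px)) ((Px A).add_mem ((Px A).pow_mem (C_mem_Px _) 2) (cc_mem _))

theorem ys_fac (e : Rt E) : ys E A * ys E A = (xs A - HahnSeries.C (ea e A)) * gx e A := by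
  have h := congrArg (HahnSeries.C : A →+* Ls A) (rt_ea e)
  rw [map_add, map_add, map_pow, map_mul, map_zero] at h
  rw [ys_sq, gx, cc, cc]
  linear_combination h

theorem ys_sI (e : Rt E) : ys E A * ys E A * (sI (ea e A) * sI (ea e A)) = gx e A := by
  rw [ys_fac, ← sr_sq]
  linear_combination (gx e A * (sr (ea e A) * sI (ea e A) + 1)) * sr_sI (ea e A)

theorem ysep1 {n : ℤ} {p q : Ls A} (hp : p ∈ Px A) (hq : q ∈ Px A) (h : Ord n (p + q * ys E A)) :
    Ord n p ∧ Ord (n + 3) q := by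
  rw [mul_comm] at h
  have h1 := ysep (E := E) (N := 1) (n := n) (P := of fun _ _ => p) (Q := of fun _ _ => q)
    (fun _ _ => hp) (fun _ _ => hq) fun _ _ => h
  exact ⟨h1.1 0 0, h1.2 0 0⟩

theorem kill {D : Matrix (Fin N) (Fin N) (Ls A)} {X c : Matrix (Fin N) (Fin N) A}
    (hD : Ent (Px A) D) (h : D * (xs A • 1 - cm X) = cm c) : c = 0 := by
  have h1 : D = cm c * (rhoI X * rhoI X) := by
    rw [← h, ← rho_mul_rho, mul_assoc, mul_assoc (rho X), ← mul_assoc (rho X) (rhoI X),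
      rho_mul_rhoI, one_mul, rho_mul_rhoI, mul_one]
  have h2 : D = 0 := ent_eq_zero hD (h1 ▸ ((lead_cm c).ord.mul
    ((lead_rhoI X).ord.mul (lead_rhoI X).ord)).mono (by norm_num))
  rw [h2, zero_mul, ← cm_zero] at h
  exact (cm_inj h).symm

theorem unit_rho (X : Matrix (Fin N) (Fin N) A) : IsUnit (rho X).det :=
  IsUnit.of_mul_eq_one (rhoI X).det (by rw [← det_mul, rho_mul_rhoI, det_one])

theorem lead_det (X : Matrix (Fin 3) (Fin 3) A) :
    Ord (-3) (rho X).det ∧ (rho X).det.coeff (-3) = 1 := by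
  have h := (lead_rho X).det
  rw [det_one] at h
  exact h

theorem rho_sq (c : A) (X : Matrix (Fin N) (Fin N) A) :
    rho X * rho X = (xs A - HahnSeries.C c) • 1 - cm (X - c • 1) := by
  rw [rho_mul_rho, cm_sub, cm_smul, cm_one, sub_smul]
  abel

/-- The determinant of `ρ`. -/
theorem det_rho (e : Rt E) (X : Matrix (Fin 3) (Fin 3) A)
    (h : E.Reg (ys E A * sI (ea e A) * (rho X).det)) :
    ∃ p, (rho X).det = sr (ea e A) * (xs A - HahnSeries.C p) := by
  obtain ⟨P, hP, Q, hQ, e1⟩ := (reg_iff E).1 h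
  obtain ⟨o1, c1⟩ := lead_det X
  have o2 := (ord_ys E (A := A)).mul' (ord_sI (ea e A))
  have o3 : Ord (-5) (P + Q * ys E A) := e1 ▸ o2.mul' o1
  have c2 := coeff_mul_lead o2 o1
  rw [coeff_mul_lead (ord_ys E) (ord_sI _), ys_coeff, sI_coeff, c1, e1, mul_one, mul_one] at c2
  have o4 : Ord (-2) Q := (ysep1 hP hQ o3).2.mono (by norm_num)
  have c3 := coeff_mul_lead o4 (ord_ys E)
  rw [ys_coeff, mul_one] at c3
  have c4 : Q.coeff (-2) = 1 := by
    rw [HahnSeries.coeff_add, px_odd hP (by norm_num), zero_add] at c2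
    exact c3.symm.trans c2
  have e2 : (rho X).det * (rho X).det = (xs A • 1 - cm X).det := by rw [← det_mul, rho_mul_rho]
  have e3 : (P * P + Q * Q * (ys E A * ys E A) - gx e A * (xs A • 1 - cm X).det) +
      (P + P) * Q * ys E A = 0 := by
    rw [← e2, ← ys_sI e]
    linear_combination (-(P + Q * ys E A) - ys E A * sI (ea e A) * (rho X).det) * e1
  have m1 : (P + P) * Q ∈ Px A := (Px A).mul_mem ((Px A).add_mem hP hP) hQ
  have e4 : (P + P) * Q = 0 := px_eq_zero m1 ((ysep1 (n := 1) ((Px A).sub_mem ((Px A).add_mem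
    ((Px A).mul_mem hP hP) ((Px A).mul_mem ((Px A).mul_mem hQ hQ) (ys_sq_mem E)))
    ((Px A).mul_mem (gx_mem e) (ent_det (ent_xX X)))) m1 (e3 ▸ Ord.zero 1)).2.mono (by norm_num))
  have e5 : P + P = 0 := eq_zero_of_mul_lead (n := -2) o4 (c4 ▸ isUnit_one) e4
  have u2 : IsUnit (2 : Ls A) := by
    have h := (unit_two (A := A)).map (HahnSeries.C : A →+* Ls A)
    rwa [map_ofNat] at h
  have e6 : P = 0 := u2.mul_right_eq_zero.1 (by rw [two_mul, e5])
  have e7 : sI (ea e A) * (rho X).det - Q = 0 := eq_zero_of_mul_lead (ord_ys E)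
    (ys_coeff E (A := A) ▸ isUnit_one) (by rw [e6] at e1; linear_combination e1)
  have e8 := px_eq_C ((Px A).sub_mem hQ xs_mem_Px) (ord_succ (n := -2) (Ord.sub o4 ord_xs) (by
    rw [HahnSeries.coeff_sub, c4, xs_coeff, sub_self]))
  refine ⟨-(Q - xs A).coeff 0, ?_⟩
  rw [map_neg, ← e8]
  linear_combination sr (ea e A) * e7 - (rho X).det * sr_sI (ea e A)

end

end Vale.Agent.P286EV
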